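import Mathlib

/-!
# P036: primes of degree one in a number field

For every number field `F` and every bound `B` there is a prime `p > B` and a ring homomorphism
`𝓞 F →+* ZMod p`.
-/

namespace Vale.Agent.P036.NF

open NumberField Polynomial

/-- Schur: infinitely many primes divide the values of a nonconstant integer polynomial. -/
theorem exists_prime_root (f : ℤ[X]) (hf : 0 < f.natDegree) (Q : ℕ) (hQ : 0 < Q) :
    ∃ p : ℕ, p.Prime ∧ ¬ p ∣ Q ∧ ∃ n : ℤ, (p : ℤ) ∣ f.eval n := by
  by_cases hc : f.eval 0 = 0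
  · obtain ⟨p, hp, hpp⟩ := Nat.exists_infinite_primes (Q + 1)
    exact ⟨p, hpp, fun h => absurd (Nat.le_of_dvd hQ h) (by omega), 0, by simp [hc]⟩
  · set c := f.eval 0 with hcdef
    have hne1 : f - C c ≠ 0 := by
      intro h
      rw [sub_eq_zero] at h
      rw [h] at hf
      simp at hf
    have hne2 : f + C c ≠ 0 := by
      intro h
      rw [← eq_neg_iff_add_eq_zero, ← C_neg] at h
      rw [h] at hf
      simp at hf
    have hinj : Function.Injective (fun t : ℕ => c * Q * (t : ℤ)) := by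
      intro s t hst
      have hcQ : c * (Q : ℤ) ≠ 0 := mul_ne_zero hc (by positivity)
      exact_mod_cast mul_left_cancel₀ hcQ hst
    have hinf : (Set.range (fun t : ℕ => c * Q * (t : ℤ))).Infinite :=
      Set.infinite_range_of_injective hinj
    obtain ⟨y, ⟨t, rfl⟩, hy⟩ := hinf.exists_notMem_finset
      ((f - C c).roots.toFinset ∪ (f + C c).roots.toFinset)
    simp only [Finset.mem_union, Multiset.mem_toFinset, mem_roots hne1, mem_roots hne2, IsRoot,
      eval_sub, eval_add, eval_C, not_or] at hy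
    obtain ⟨k, hk⟩ := sub_dvd_eval_sub (c * Q * (t : ℤ)) 0 f
    rw [sub_zero, ← hcdef] at hk
    have hval : f.eval (c * Q * (t : ℤ)) = c * (1 + Q * t * k) := by linarith
    have hv : (1 + (Q : ℤ) * t * k).natAbs ≠ 1 := by
      intro h
      rcases Int.natAbs_eq_iff.1 h with h | h
      · apply hy.1
        rw [hval, h]; simp
      · apply hy.2
        rw [hval, h]; simp
    obtain ⟨p, hp, hpd⟩ := Nat.exists_prime_and_dvd hv
    refine ⟨p, hp, ?_, c * Q * t, ?_⟩
    · intro hpQ
      have h1 : (p : ℤ) ∣ 1 + (Q : ℤ) * t * k := Int.natCast_dvd.2 hpd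
      have h2 : (p : ℤ) ∣ (Q : ℤ) * t * k :=
        ((Int.natCast_dvd_natCast.2 hpQ).mul_right _).mul_right _
      have h3 : (p : ℤ) ∣ 1 := (dvd_add_left h2).1 h1
      exact hp.one_lt.ne' (by simpa using Int.natAbs_dvd_natAbs.2 h3)
    · rw [hval]
      exact (Int.natCast_dvd.2 hpd).mul_left _

theorem deg1 (F : Type*) [Field F] [NumberField F] (B : ℕ) :
    ∃ p : ℕ, p.Prime ∧ B < p ∧ Nonempty (𝓞 F →+* ZMod p) := by
  -- a primitive integral element
  obtain ⟨a, ha⟩ := Field.exists_primitive_element ℚ F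
  have halg : IsAlgebraic ℤ a :=
    (IsFractionRing.isAlgebraic_iff ℤ ℚ F).2 (Algebra.IsAlgebraic.isAlgebraic a)
  obtain ⟨y, hy0, hy⟩ := halg.exists_integral_multiple
  set α : F := y • a with hαdef
  have hyF : (y : ℚ) ≠ 0 := by exact_mod_cast hy0
  have hα : IntermediateField.adjoin ℚ {α} = ⊤ := by
    rw [eq_top_iff, ← ha]
    rw [IntermediateField.adjoin_simple_le_iff]
    have h1 : α ∈ IntermediateField.adjoin ℚ {α} := IntermediateField.mem_adjoin_simple_self ℚ α
    have h2 : a = (y : ℚ)⁻¹ • α := by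
      rw [hαdef, ← Int.cast_smul_eq_zsmul ℚ y a, smul_smul, inv_mul_cancel₀ hyF, one_smul]
    rw [h2]
    exact (IntermediateField.adjoin ℚ {α}).smul_mem h1
  have hαint : IsIntegral ℤ α := hy
  have hαintQ : IsIntegral ℚ α := hαint.tower_top
  let pb : PowerBasis ℚ F := PowerBasis.ofAdjoinEqTop' hαintQ (by
    rw [← IntermediateField.adjoin_simple_toSubalgebra_of_isAlgebraic hαintQ.isAlgebraic, hα]; rfl)
  have hgen : pb.gen = α := PowerBasis.ofAdjoinEqTop'_gen _ _
  have hgenint : IsIntegral ℤ pb.gen := hgen ▸ hαint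
  -- the index bound
  obtain ⟨m, hm⟩ : ∃ m : ℤ, algebraMap ℤ ℚ m = Algebra.discr ℚ pb.basis := by
    apply IsIntegrallyClosed.isIntegral_iff.1
    apply Algebra.discr_isIntegral
    intro i
    rw [pb.basis_eq_pow]
    exact hgenint.pow _
  have hm0 : m ≠ 0 := by
    rintro rfl
    exact Algebra.discr_not_zero_of_basis ℚ pb.basis (by rw [← hm, map_zero])
  have hidx : ∀ z : 𝓞 F, (m : F) * (z : F) ∈ Algebra.adjoin ℤ {α} := by
    intro z
    have h := Algebra.discr_mul_isIntegral_mem_adjoin ℚ hgenint z.isIntegral_coe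
    rw [← hm, hgen] at h
    have e : (m : F) * (z : F) = (algebraMap ℤ ℚ m) • (z : F) := by
      rw [Algebra.smul_def]; simp
    rw [e]; exact h
  -- the prime
  set f := minpoly ℤ α with hf
  obtain ⟨p, hp, hpQ, n, hn⟩ := exists_prime_root f (minpoly.natDegree_pos hαint)
    (m.natAbs * B.factorial) (by positivity)
  have := Fact.mk hp
  refine ⟨p, hp, ?_, ?_⟩
  · by_contra h
    exact hpQ (((Nat.dvd_factorial hp.pos (not_lt.1 h))).mul_left _)
  have hpm : (m : ZMod p) ≠ 0 := by
    intro h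
    rw [ZMod.intCast_zmod_eq_zero_iff_dvd] at h
    exact hpQ ((Int.natCast_dvd.1 h).mul_right _)
  let φ0 : AdjoinRoot f →+* ZMod p := AdjoinRoot.lift (Int.castRingHom (ZMod p)) (n : ZMod p) (by
    have h1 : f.eval₂ (Int.castRingHom (ZMod p)) ((Int.castRingHom (ZMod p)) n) =
      (Int.castRingHom (ZMod p)) (f.eval n) := by
      rw [eval₂_at_apply]
    have h2 : (Int.castRingHom (ZMod p)) (f.eval n) = 0 := by
      rw [eq_intCast, ZMod.intCast_zmod_eq_zero_iff_dvd]; exact hn
    rw [h2] at h1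
    exact h1)
  let φ : Algebra.adjoin ℤ {α} →+* ZMod p :=
    φ0.comp (minpoly.equivAdjoin hαint).symm.toRingEquiv.toRingHom
  let g : 𝓞 F → Algebra.adjoin ℤ {α} := fun z => ⟨(m : F) * (z : F), hidx z⟩
  have hφm : ∀ x : ℤ, φ (x : Algebra.adjoin ℤ {α}) = (x : ZMod p) := fun x => map_intCast φ x
  refine ⟨{ toFun := fun z => (m : ZMod p)⁻¹ * φ (g z), map_one' := ?_, map_mul' := ?_, map_zero' := ?_, map_add' := ?_ }⟩
  · have : g 1 = (m : Algebra.adjoin ℤ {α}) := by
      apply Subtype.ext; simp [g]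
    rw [this, hφm, inv_mul_cancel₀ hpm]
  · intro x y
    have : g x * g y = (m : Algebra.adjoin ℤ {α}) * g (x * y) := by
      apply Subtype.ext; simp [g]; ring
    have h2 := congrArg φ this
    rw [map_mul, map_mul, hφm] at h2
    field_simp
    rw [h2]
  · have : g 0 = 0 := by apply Subtype.ext; simp [g]
    simp [this]
  · intro x y
    have : g (x + y) = g x + g y := by apply Subtype.ext; simp [g]; ring
    rw [this, map_add]; ring

end Vale.Agent.P036.NF
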